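import Vale.Agent.Lib.P248.Cone

/-!
# P248 (Mahler conjectures): cones, products and a family of polytopes

For `K ⊆ ℝ^n` (real functions on a finite index type) and a point `z`, `polarAt K z` is the polar
body of `K` with respect to `z` and `santalo K z = vol K * vol (polarAt K z)`; the volume product
of a convex body is the infimum of `santalo K z` over the interior points `z` of `K`.
`simplexVal n` is the volume product of the `n`-simplex.  `ccone B` is the closed cone
`{(t p, t) : p ∈ B, 0 ≤ t ≤ 1}` over `B`, a subset of `ℝ^(n+1)`.

* For a bounded measurable `B ⊆ ℝ^n`, `p₀ ∈ B` and `0 < s < 1`, `santalo (ccone B)` at the point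
  with coordinates s p₀ and s is `santalo B p₀` divided by the product of the square of n+1,
  of 1-s and of the power n+1 of s; every interior point of the
  cone is such a point with `p₀` interior to `B`; and if the simplex bound holds at all interior
  points of `B`, it holds at all interior points of `ccone B`.
* Every member of the family `Pyr` (generated from the segments of `ℝ^1` by Cartesian products,
  closed cones and invertible affine maps) is compact, convex, of positive volume, satisfies the
  simplex bound at every interior point, and is a simplex if the bound is attained.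
-/

namespace Vale.Agent.Results.P248.ConesAndProducts

open Vale.Agent.Lib.P248
open Vale.Agent.Lib.P254 (ccone)

theorem result :
    (∀ (ι : Type) [Fintype ι] (B : Set (ι → ℝ)), MeasurableSet B → Bornology.IsBounded B →
      (∀ (p₀ : ι → ℝ) (s : ℝ), p₀ ∈ B → 0 < s → s < 1 →
        santalo (ccone B) (Sum.elim (s • p₀) (fun _ => s))
          = santalo B p₀
            / (((Fintype.card ι : ℝ) + 1) ^ 2 * ((1 - s) * s ^ (Fintype.card ι + 1)))) ∧
      (∀ c ∈ interior (ccone B), ∃ p₀ ∈ interior B, ∃ s : ℝ, 0 < s ∧ s < 1 ∧
        c = Sum.elim (s • p₀) (fun _ => s)) ∧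
      ((∀ z ∈ interior B, simplexVal (Fintype.card ι) ≤ santalo B z) →
        ∀ c ∈ interior (ccone B), simplexVal (Fintype.card ι + 1) ≤ santalo (ccone B) c)) ∧
    (∀ (ι : Type) [Fintype ι] [DecidableEq ι] (K : Set (ι → ℝ)), Pyr K →
      IsCompact K ∧ Convex ℝ K ∧ 0 < vol K ∧
      (∀ z ∈ interior K, simplexVal (Fintype.card ι) ≤ santalo K z) ∧
      ((∃ z ∈ interior K, santalo K z = simplexVal (Fintype.card ι)) →
        ∃ p : Fin (Fintype.card ι + 1) → ι → ℝ, AffineIndependent ℝ p ∧
          K = convexHull ℝ (Set.range p))) := by
  refine ⟨fun ι _ B hB hbd => ⟨fun p₀ s hp hs0 hs1 => santalo_ccone hB hbd hp hs0 hs1,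
    fun c hc => ?_, fun hq c hc => (q2_ccone hB hbd hq hc).1⟩, fun ι _ _ K hK => pyr_main hK⟩
  obtain ⟨h0, h1, hp, hself⟩ := interior_ccone hc
  exact ⟨_, hp, _, h0, h1, hself⟩

end Vale.Agent.Results.P248.ConesAndProducts
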