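import Vale.Agent.Lib.P248.Near

/-!
# P248 (Mahler conjectures): sets that fill a large part of a box

For `K ⊆ ℝ^n` (real functions on a finite index type) and a point `z`, `polarAt K z` is the polar
body of `K` with respect to `z` and `santalo K z = vol K * vol (polarAt K z)`; the volume product
of a convex body is the infimum of `santalo K z` over the interior points `z` of `K`.
`simplexVal n` is the volume product of the `n`-simplex.  `Box` is the family of Cartesian
products of segments.

* If `K ⊆ T` and `z` is interior to `K`, then `santalo K z ≥ (vol K / vol T) * santalo T z`.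
* For a box `T ⊆ ℝ^n`, `santalo T z ≥ 4^n / n!` at every interior point, and
  `simplexVal n < 4^n / n!` for `n ≥ 2`.
* Hence `santalo K z ≥ simplexVal n` at every interior point of every `K` contained in a box `T`
  with `simplexVal n * vol T ≤ (4^n / n!) * vol K`.
* `santalo` is invariant under invertible affine maps.
-/

namespace Vale.Agent.Results.P248.NearBoxes

open Vale.Agent.Lib.P248

theorem result :
    (∀ (ι : Type) [Fintype ι] [DecidableEq ι] (K T : Set (ι → ℝ)) (z : ι → ℝ),
      K ⊆ T → z ∈ interior K → 0 < vol T →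
      vol K / vol T * santalo T z ≤ santalo K z) ∧
    (∀ (ι : Type) [Fintype ι] [DecidableEq ι] (T : Set (ι → ℝ)), Box T →
      IsCompact T ∧ Convex ℝ T ∧ 0 < vol T ∧
      ∀ z ∈ interior T,
        (4:ℝ) ^ Fintype.card ι / ((Fintype.card ι).factorial : ℝ) ≤ santalo T z) ∧
    (∀ n : ℕ, 2 ≤ n → simplexVal n < (4:ℝ) ^ n / (n.factorial : ℝ)) ∧
    (∀ (ι : Type) [Fintype ι] [DecidableEq ι] (T K : Set (ι → ℝ)), Box T → K ⊆ T →
      simplexVal (Fintype.card ι) * vol T
        ≤ (4:ℝ) ^ Fintype.card ι / ((Fintype.card ι).factorial : ℝ) * vol K →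
      ∀ z ∈ interior K, simplexVal (Fintype.card ι) ≤ santalo K z) ∧
    (∀ (ι : Type) [Fintype ι] [DecidableEq ι] (F : Matrix ι ι ℝ) (c : ι → ℝ)
      (K : Set (ι → ℝ)) (z : ι → ℝ), F.det ≠ 0 → MeasurableSet K →
      santalo ((fun x : ι → ℝ => c + F.mulVec x) '' K) (c + F.mulVec z) = santalo K z) := by
  refine ⟨fun ι _ _ K T z hKT hz hT => santalo_sandwich hKT hz hT,
    fun ι _ _ T hT => box_main hT, fun n hn => simplexVal_lt_box hn,
    fun ι _ _ T K hT hKT hvol z hz => q2_near_box hT hKT hvol hz,
    fun ι _ _ F c K z hF hK => santalo_aff hF c hK z⟩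

end Vale.Agent.Results.P248.NearBoxes
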