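import Vale.Agent.Results.P248.Products
import Vale.Agent.Results.P248.ConesAndProducts
import Vale.Agent.Results.P248.NearBoxes

/-!
# P248 (Mahler conjectures): products, cones, a family of polytopes, sets close to boxes

The conjunction of the main statements of the hand-ins `Products`, `ConesAndProducts` and
`NearBoxes`: the product formula and the cone formula for `santalo`, the passage of the simplex
bound to products and cones, the simplex bound with its equality case on the family `Pyr`, the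
comparison of `santalo` for nested sets, the bound `4^n / n!` on boxes, the simplex bound for
sets that fill a large part of a box, and the affine invariance of `santalo`.
-/

namespace Vale.Agent.Results.P248.AUnion

open Vale.Agent.Lib.P248
open Vale.Agent.Lib.P254 (ccone)

theorem result :
    (∀ (ι κ : Type) [Fintype ι] [Fintype κ] [Nonempty ι] [Nonempty κ]
      (A : Set (ι → ℝ)) (B : Set (κ → ℝ)),
      (∀ z₁ ∈ interior A, ∀ z₂ ∈ interior B,
        (Sum.elim z₁ z₂ : ι ⊕ κ → ℝ) ∈ interior (prodSet A B) ∧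
        santalo (prodSet A B) (Sum.elim z₁ z₂)
          = ((Fintype.card ι).factorial : ℝ) * ((Fintype.card κ).factorial : ℝ)
              / ((Fintype.card ι + Fintype.card κ).factorial : ℝ)
            * (santalo A z₁ * santalo B z₂)) ∧
      (∀ z ∈ interior (prodSet A B),
        (fun i => z (Sum.inl i)) ∈ interior A ∧ (fun j => z (Sum.inr j)) ∈ interior B) ∧
      ((∀ z ∈ interior A, simplexVal (Fintype.card ι) ≤ santalo A z) →
        (∀ z ∈ interior B, simplexVal (Fintype.card κ) ≤ santalo B z) →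
        ∀ z ∈ interior (prodSet A B),
          simplexVal (Fintype.card ι + Fintype.card κ) < santalo (prodSet A B) z)) ∧
    (∀ (ι : Type) [Fintype ι] (B : Set (ι → ℝ)), MeasurableSet B → Bornology.IsBounded B →
      (∀ (p₀ : ι → ℝ) (s : ℝ), p₀ ∈ B → 0 < s → s < 1 →
        santalo (ccone B) (Sum.elim (s • p₀) (fun _ => s))
          = santalo B p₀
            / (((Fintype.card ι : ℝ) + 1) ^ 2 * ((1 - s) * s ^ (Fintype.card ι + 1)))) ∧
      (∀ c ∈ interior (ccone B), ∃ p₀ ∈ interior B, ∃ s : ℝ, 0 < s ∧ s < 1 ∧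
        c = Sum.elim (s • p₀) (fun _ => s)) ∧
      ((∀ z ∈ interior B, simplexVal (Fintype.card ι) ≤ santalo B z) →
        ∀ c ∈ interior (ccone B), simplexVal (Fintype.card ι + 1) ≤ santalo (ccone B) c)) ∧
    (∀ (ι : Type) [Fintype ι] [DecidableEq ι] (K : Set (ι → ℝ)), Pyr K →
      IsCompact K ∧ Convex ℝ K ∧ 0 < vol K ∧
      (∀ z ∈ interior K, simplexVal (Fintype.card ι) ≤ santalo K z) ∧
      ((∃ z ∈ interior K, santalo K z = simplexVal (Fintype.card ι)) →
        ∃ p : Fin (Fintype.card ι + 1) → ι → ℝ, AffineIndependent ℝ p ∧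
          K = convexHull ℝ (Set.range p))) ∧
    (∀ (ι : Type) [Fintype ι] [DecidableEq ι] (K T : Set (ι → ℝ)) (z : ι → ℝ),
      K ⊆ T → z ∈ interior K → 0 < vol T →
      vol K / vol T * santalo T z ≤ santalo K z) ∧
    (∀ (ι : Type) [Fintype ι] [DecidableEq ι] (T : Set (ι → ℝ)), Box T →
      IsCompact T ∧ Convex ℝ T ∧ 0 < vol T ∧
      ∀ z ∈ interior T,
        (4:ℝ) ^ Fintype.card ι / ((Fintype.card ι).factorial : ℝ) ≤ santalo T z) ∧
    (∀ n : ℕ, 2 ≤ n → simplexVal n < (4:ℝ) ^ n / (n.factorial : ℝ)) ∧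
    (∀ (ι : Type) [Fintype ι] [DecidableEq ι] (T K : Set (ι → ℝ)), Box T → K ⊆ T →
      simplexVal (Fintype.card ι) * vol T
        ≤ (4:ℝ) ^ Fintype.card ι / ((Fintype.card ι).factorial : ℝ) * vol K →
      ∀ z ∈ interior K, simplexVal (Fintype.card ι) ≤ santalo K z) ∧
    (∀ (ι : Type) [Fintype ι] [DecidableEq ι] (F : Matrix ι ι ℝ) (c : ι → ℝ)
      (K : Set (ι → ℝ)) (z : ι → ℝ), F.det ≠ 0 → MeasurableSet K →
      santalo ((fun x : ι → ℝ => c + F.mulVec x) '' K) (c + F.mulVec z) = santalo K z) := by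
  obtain ⟨p1, -, -⟩ := Vale.Agent.Results.P248.Products.result
  obtain ⟨c1, c2⟩ := Vale.Agent.Results.P248.ConesAndProducts.result
  obtain ⟨n1, n2, n3, n4, n5⟩ := Vale.Agent.Results.P248.NearBoxes.result
  exact ⟨p1, c1, c2, n1, n2, n3, n4, n5⟩

end Vale.Agent.Results.P248.AUnion
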