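import Vale.Agent.Lib.P248.Product

/-!
# P248 (Mahler conjectures): the volume product of Cartesian products

For `K ⊆ ℝ^n` (real functions on a finite index type) and a point `z`, `polarAt K z` is the polar
body of `K` with respect to `z` and `santalo K z = vol K * vol (polarAt K z)`; the volume product
of a convex body is the infimum of `santalo K z` over the interior points `z` of `K`.
`simplexVal n` is the volume product of the `n`-simplex.

* For interior points `z₁` of `A ⊆ ℝ^k` and `z₂` of `B ⊆ ℝ^l` (`k, l ≥ 1`), the pair is an
  interior point of `A × B`, and `santalo (A × B)` at the pair is `k! l! / (k+l)!` times the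
  product of `santalo A z₁` and `santalo B z₂`; every interior point of `A × B` is such a pair.
* If `santalo A z ≥ simplexVal k` at all interior points of `A` and `santalo B z ≥ simplexVal l`
  at all interior points of `B`, then `santalo (A × B) z > simplexVal (k + l)` at all interior
  points of `A × B`: the simplex bound for the volume product passes to products, strictly.
* The simplex bound holds for segments, and `simplexVal (k + l)` is strictly smaller than
  `k! l! / (k+l)!` times `simplexVal k * simplexVal l`.
-/

namespace Vale.Agent.Results.P248.Products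

open Vale.Agent.Lib.P248

theorem result :
    (∀ (ι κ : Type) [Fintype ι] [Fintype κ] [Nonempty ι] [Nonempty κ]
      (A : Set (ι → ℝ)) (B : Set (κ → ℝ)),
      (∀ z₁ ∈ interior A, ∀ z₂ ∈ interior B,
        (Sum.elim z₁ z₂ : ι ⊕ κ → ℝ) ∈ interior (prodSet A B) ∧
        santalo (prodSet A B) (Sum.elim z₁ z₂)
          = ((Fintype.card ι).factorial : ℝ) * ((Fintype.card κ).factorial : ℝ)
              / ((Fintype.card ι + Fintype.card κ).factorial : ℝ)
            * (santalo A z₁ * santalo B z₂)) ∧
      (∀ z ∈ interior (prodSet A B),
        (fun i => z (Sum.inl i)) ∈ interior A ∧ (fun j => z (Sum.inr j)) ∈ interior B) ∧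
      ((∀ z ∈ interior A, simplexVal (Fintype.card ι) ≤ santalo A z) →
        (∀ z ∈ interior B, simplexVal (Fintype.card κ) ≤ santalo B z) →
        ∀ z ∈ interior (prodSet A B),
          simplexVal (Fintype.card ι + Fintype.card κ) < santalo (prodSet A B) z)) ∧
    (∀ (a b : ℝ) (z : Unit → ℝ), z ∈ interior (seg a b) → simplexVal 1 ≤ santalo (seg a b) z) ∧
    (∀ k l : ℕ, 1 ≤ k → 1 ≤ l →
      simplexVal (k + l)
        < (k.factorial : ℝ) * (l.factorial : ℝ) / ((k + l).factorial : ℝ)
          * (simplexVal k * simplexVal l)) := by
  classical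
  refine ⟨fun ι κ _ _ _ _ A B => ⟨fun z₁ hz₁ z₂ hz₂ => ⟨prod_interior hz₁ hz₂, ?_⟩,
    fun z hz => interior_prodSet hz, fun hA hB => q2_prod hA hB⟩,
    fun a b z hz => santalo_seg hz, fun k l hk hl => simplexVal_lt hk hl⟩
  rw [santalo_prod hz₁ hz₂, fsc_eq]

end Vale.Agent.Results.P248.Products
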